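import Vale.Agent.P017.R3.Gen

/-!
# P017: random matrices with two kinds of special indices

`prob5` extends `prob2` by a special index (`tw a = 1`) whose entry in the new column is the class `e`
of the new prime and whose entry in the new row is uniform.
-/

open Finset

namespace Vale.Agent.P017.R4.H472

open Vale.Agent.P017.R3

/-- the new column -/
def cc {V : Type} (tw : V → ZMod 2) (e : ZMod 2) (φ : V → ZMod 2) : V → ZMod 2 :=
  fun a => if tw a = 1 then e else φ a

/-- random model; `prob2` is the case `tw = 0` -/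
noncomputable def prob5 : List (ZMod 2) → (V : Type) → [Fintype V] → [DecidableEq V] →
    Matrix V V (ZMod 2) → (V → ZMod 2) → (V → ZMod 2) → (V → ZMod 2) → ℝ
  | [], _, _, _, M, _, _, _ => if ck M = 0 then 1 else 0
  | e :: ε, V, _, _, M, μ, st, tw =>
    (∑ φ : V → ZMod 2, ∑ w : ZMod 2, ∑ χ : ZMod 2,
      prob5 ε (Option V) (ext M (cc tw e φ) (φ + (e • μ + χ • st)) w) (extv μ e) (extv st 0)
        (extv tw 0)) / 2 ^ (Fintype.card V + 2)

/-- reciprocity, and the row of the index `tw` -/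
structure Rec3 {V : Type} (A : Matrix V V (ZMod 2)) (μ st tw : V → ZMod 2) : Prop where
  recip : ∀ a b, a ≠ b → μ a = 1 → μ b = 1 → A a b + A b a = 1
  zst : ∀ a, μ a = 1 → st a = 0
  ztw : ∀ a, μ a = 1 → tw a = 0
  one : ∀ a b, tw a = 1 → tw b = 1 → a = b
  row : ∀ a b, tw a = 1 → μ b = 1 → A a b = 1

/-- (B4''') -/
def StmtRM5 : Prop := ∀ η B : ℝ, η < eta → ∃ h k : ℕ, ∀ (ε : List (ZMod 2)) (V W : Type)
  [Fintype V] [DecidableEq V] [Fintype W] [Nonempty W]
  (A : W → Matrix V V (ZMod 2)) (μ st tw : V → ZMod 2), (∀ u, Rec3 (A u) μ st tw) →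
  h ≤ (ε.take (ε.length - k)).count 1 →
  (∑ u : W, (2 : ℝ) ^ ck (A u)) / Fintype.card W ≤ B →
  η ≤ (∑ u : W, prob5 ε V (A u) μ st tw) / Fintype.card W

end Vale.Agent.P017.R4.H472
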