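import Vale.Agent.P017.R4.H472.D5
import Vale.Agent.P017.R3.H237.LA
import Vale.Agent.P017.R3.H916.LA1

/-!
# P017: linear algebra for the model `prob5`
-/

open Finset Matrix

namespace Vale.Agent.P017.R4.H472

open Vale.Agent.P017.R3
open Vale.Agent.P017.R3.H237 (sum_z2 z2_cases sum_optv ext_mulVec ext_vecMul extv_eq_zero
  two_pow_ck half z2_ne)
open Vale.Agent.P017.R3.H916 (Bp Bp_iff sum_AB sum_AnB sum_nAB sum_nAnB finrank_range
  finrank_range_transpose functional_eq dot_transpose real_pow card_submodule finrank_fun card_B)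

variable {V : Type} [Fintype V] [DecidableEq V]

/-- delete the special coordinates -/
def zt (tw : V → ZMod 2) : (V → ZMod 2) →ₗ[ZMod 2] (V → ZMod 2) where
  toFun x := fun a => if tw a = 1 then 0 else x a
  map_add' x y := by
    funext a
    by_cases h : tw a = 1 <;> simp [h]
  map_smul' c x := by
    funext a
    by_cases h : tw a = 1 <;> simp [h]

omit [Fintype V] [DecidableEq V] in
lemma zt_apply (tw x : V → ZMod 2) (a : V) : zt tw x a = if tw a = 1 then 0 else x a := rfl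

omit [Fintype V] [DecidableEq V] in
lemma zt_zero : zt (0 : V → ZMod 2) = LinearMap.id := by
  ext x a
  simp [zt_apply]

/-- the fixed part of the new column -/
def dl (tw : V → ZMod 2) (e : ZMod 2) : V → ZMod 2 := fun a => if tw a = 1 then e else 0

omit [Fintype V] [DecidableEq V] in
lemma cc_eq (tw φ : V → ZMod 2) (e : ZMod 2) : cc tw e φ = zt tw φ + dl tw e := by
  funext a
  simp only [cc, zt_apply, dl, Pi.add_apply]
  split_ifs <;> simp

omit [DecidableEq V] in
lemma zt_dot (tw x y : V → ZMod 2) : zt tw x ⬝ᵥ y = x ⬝ᵥ zt tw y := by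
  simp only [dotProduct, zt_apply]
  refine Finset.sum_congr rfl fun a _ => ?_
  split_ifs <;> simp

/-- number of bad vectors -/
noncomputable def sp5 (M : Matrix V V (ZMod 2)) (tw : V → ZMod 2) : ℕ :=
  (univ.filter fun l : V → ZMod 2 => zt tw l ≠ 0 ∧ M.vecMul l = 0 ∧ M.mulVec (zt tw l) = 0).card

/-! ### Counting -/

open Classical in
theorem card_fiber {Q : Type} [AddCommGroup Q] [Module (ZMod 2) Q] [Module.Finite (ZMod 2) Q]
    (Φ : (V → ZMod 2) →ₗ[ZMod 2] Q) (hs : Function.Surjective Φ) (v : Q) (s : ℕ)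
    (hQ : Module.finrank (ZMod 2) Q = s) :
    ((univ.filter fun φ : V → ZMod 2 => Φ φ = v).card : ℝ) =
      2 ^ Fintype.card V * (1 / 2 : ℝ) ^ s := by
  have h1 := LinearMap.finrank_range_add_finrank_ker Φ
  rw [LinearMap.range_eq_top.2 hs, finrank_top, hQ, finrank_fun] at h1
  have h2 : Module.finrank (ZMod 2) (LinearMap.ker Φ) + s = Fintype.card V := by omega
  rw [real_pow h2]
  obtain ⟨φ0, h0⟩ := hs v
  have h3 : (univ.filter fun φ : V → ZMod 2 => Φ φ = v).card =
      (univ.filter fun φ : V → ZMod 2 => φ ∈ LinearMap.ker Φ).card := by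
    apply Finset.card_equiv (Equiv.subRight φ0)
    intro x
    simp only [Finset.mem_filter, Finset.mem_univ, true_and, Equiv.subRight_apply,
      LinearMap.mem_ker, map_sub, h0, sub_eq_zero]
  rw [h3, card_submodule _ _ (fun φ => Iff.rfl)]
  push_cast
  rfl

/-- the two conditions on `φ` -/
noncomputable def PhiM (M : Matrix V V (ZMod 2)) (tw : V → ZMod 2) : (V → ZMod 2) →ₗ[ZMod 2]
    ((V → ZMod 2) ⧸ LinearMap.range M.mulVecLin) ×
      ((V → ZMod 2) ⧸ LinearMap.range M.transpose.mulVecLin) :=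
  ((LinearMap.range M.mulVecLin).mkQ.comp (zt tw)).prod
    (LinearMap.range M.transpose.mulVecLin).mkQ

theorem PhiM_surj (M : Matrix V V (ZMod 2)) (tw : V → ZMod 2) (h : sp5 M tw = 0)
    (hl : ∀ l : V → ZMod 2, zt tw l = 0 → M.vecMul l = 0 → l = 0) :
    Function.Surjective (PhiM M tw) := by
  rw [← LinearMap.range_eq_top]
  by_contra hn
  obtain ⟨f, hf, hle⟩ := Submodule.exists_le_ker_of_lt_top _ (lt_top_iff_ne_top.2 hn)
  obtain ⟨l, hl1⟩ := functional_eq ((f.comp (LinearMap.inl (ZMod 2) _ _)).comp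
    (LinearMap.range M.mulVecLin).mkQ)
  obtain ⟨r, hr1⟩ := functional_eq ((f.comp (LinearMap.inr (ZMod 2) _ _)).comp
    (LinearMap.range M.transpose.mulVecLin).mkQ)
  have hl2 : M.vecMul l = 0 := by
    funext i
    have h1 := hl1 (M.mulVec (Pi.single i 1))
    have h2 : (LinearMap.range M.mulVecLin).mkQ (M.mulVec (Pi.single i 1)) = 0 := by
      rw [Submodule.mkQ_apply, Submodule.Quotient.mk_eq_zero]
      exact ⟨Pi.single i 1, rfl⟩
    rw [LinearMap.comp_apply, h2, map_zero, Matrix.dotProduct_mulVec] at h1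
    simpa using h1.symm
  have hr2 : M.mulVec r = 0 := by
    funext i
    have h1 := hr1 (M.transpose.mulVec (Pi.single i 1))
    have h2 : (LinearMap.range M.transpose.mulVecLin).mkQ
        (M.transpose.mulVec (Pi.single i 1)) = 0 := by
      rw [Submodule.mkQ_apply, Submodule.Quotient.mk_eq_zero]
      exact ⟨Pi.single i 1, rfl⟩
    rw [LinearMap.comp_apply, h2, map_zero, dot_transpose] at h1
    simpa using h1.symm
  have hsum : ∀ φ : V → ZMod 2, (zt tw l + r) ⬝ᵥ φ = 0 := by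
    intro φ
    have h1 : f (PhiM M tw φ) = 0 := hle ⟨φ, rfl⟩
    have h2 : PhiM M tw φ = LinearMap.inl (ZMod 2) _ _ ((LinearMap.range M.mulVecLin).mkQ
        (zt tw φ)) + LinearMap.inr (ZMod 2) _ _ ((LinearMap.range M.transpose.mulVecLin).mkQ φ) := by
      simp [PhiM]
    rw [h2, map_add] at h1
    have h3 := hl1 (zt tw φ)
    have h4 := hr1 φ
    rw [LinearMap.comp_apply, LinearMap.comp_apply] at h3 h4
    rw [h3, h4] at h1
    rw [add_dotProduct, zt_dot]
    exact h1
  have hz : zt tw l + r = 0 := by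
    funext i
    have := hsum (Pi.single i 1)
    simpa using this
  have hr : r = zt tw l := by
    have h2 : ∀ a b : ZMod 2, a + b = 0 → b = a := by decide
    funext i
    exact h2 _ _ (congrFun hz i)
  have hz0 : zt tw l = 0 := by
    by_contra h0
    unfold sp5 at h
    rw [Finset.card_eq_zero, Finset.filter_eq_empty_iff] at h
    exact h (Finset.mem_univ l) ⟨h0, hl2, hr ▸ hr2⟩
  have hl0 := hl l hz0 hl2
  rw [hz0] at hr
  apply hf
  refine LinearMap.ext fun q => ?_
  obtain ⟨q1, q2⟩ := q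
  obtain ⟨x, rfl⟩ := Submodule.mkQ_surjective _ q1
  obtain ⟨y, rfl⟩ := Submodule.mkQ_surjective _ q2
  have h2 : ((LinearMap.range M.mulVecLin).mkQ x,
      (LinearMap.range M.transpose.mulVecLin).mkQ y) =
      LinearMap.inl (ZMod 2) _ _ ((LinearMap.range M.mulVecLin).mkQ x) +
      LinearMap.inr (ZMod 2) _ _ ((LinearMap.range M.transpose.mulVecLin).mkQ y) := by
    simp
  have h3 := hl1 x
  have h4 := hr1 y
  rw [LinearMap.comp_apply, LinearMap.comp_apply] at h3 h4
  rw [h2, map_add, h3, h4, hl0, hr, zero_dotProduct, zero_dotProduct, add_zero]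
  rfl

omit [DecidableEq V] in
theorem cond_A (M : Matrix V V (ZMod 2)) (tw φ : V → ZMod 2) (e : ZMod 2) :
    (∃ x0, M.mulVec x0 = cc tw e φ) ↔
      (LinearMap.range M.mulVecLin).mkQ (zt tw φ) =
        (LinearMap.range M.mulVecLin).mkQ (-(dl tw e)) := by
  rw [← sub_eq_zero, ← map_sub, sub_neg_eq_add, ← cc_eq, Submodule.mkQ_apply,
    Submodule.Quotient.mk_eq_zero, LinearMap.mem_range]
  rfl

theorem cond_B (M : Matrix V V (ZMod 2)) (ν φ : V → ZMod 2) :
    Bp M (φ + ν) ↔ (LinearMap.range M.transpose.mulVecLin).mkQ φ =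
        (LinearMap.range M.transpose.mulVecLin).mkQ (-ν) := by
  rw [Bp_iff, ← sub_eq_zero, ← map_sub, sub_neg_eq_add, Submodule.mkQ_apply,
    Submodule.Quotient.mk_eq_zero]

theorem finrank_q1 (M : Matrix V V (ZMod 2)) :
    Module.finrank (ZMod 2) ((V → ZMod 2) ⧸ LinearMap.range M.mulVecLin) = ck M := by
  have h1 := Submodule.finrank_quotient_add_finrank (LinearMap.range M.mulVecLin)
  have h2 := finrank_range M
  rw [finrank_fun] at h1
  omega

theorem finrank_q2 (M : Matrix V V (ZMod 2)) :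
    Module.finrank (ZMod 2) ((V → ZMod 2) ⧸ LinearMap.range M.transpose.mulVecLin) = ck M := by
  have h1 := Submodule.finrank_quotient_add_finrank (LinearMap.range M.transpose.mulVecLin)
  have h2 := finrank_range_transpose M
  rw [finrank_fun] at h1
  omega

open Classical in
theorem card_A5 (M : Matrix V V (ZMod 2)) (tw : V → ZMod 2) (e : ZMod 2)
    (hs : Function.Surjective (PhiM M tw)) :
    ((univ.filter fun φ : V → ZMod 2 => ∃ x0, M.mulVec x0 = cc tw e φ).card : ℝ) =
      2 ^ Fintype.card V * (1 / 2 : ℝ) ^ ck M := by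
  have h1 : (univ.filter fun φ : V → ZMod 2 => ∃ x0, M.mulVec x0 = cc tw e φ) =
      univ.filter fun φ : V → ZMod 2 => ((LinearMap.fst (ZMod 2) _ _).comp (PhiM M tw)) φ =
        (LinearMap.range M.mulVecLin).mkQ (-(dl tw e)) := by
    refine Finset.filter_congr fun φ _ => ?_
    rw [cond_A]
    rfl
  rw [h1]
  refine card_fiber _ ?_ _ _ (finrank_q1 M)
  intro v
  obtain ⟨φ, hφ⟩ := hs (v, 0)
  exact ⟨φ, by rw [LinearMap.comp_apply, hφ]; rfl⟩

open Classical in
theorem card_AB5 (M : Matrix V V (ZMod 2)) (tw ν : V → ZMod 2) (e : ZMod 2)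
    (hs : Function.Surjective (PhiM M tw)) :
    ((univ.filter fun φ : V → ZMod 2 => (∃ x0, M.mulVec x0 = cc tw e φ) ∧ Bp M (φ + ν)).card : ℝ) =
      2 ^ Fintype.card V * (1 / 2 : ℝ) ^ (2 * ck M) := by
  have h1 : (univ.filter fun φ : V → ZMod 2 => (∃ x0, M.mulVec x0 = cc tw e φ) ∧ Bp M (φ + ν)) =
      univ.filter fun φ : V → ZMod 2 => PhiM M tw φ =
        ((LinearMap.range M.mulVecLin).mkQ (-(dl tw e)),
          (LinearMap.range M.transpose.mulVecLin).mkQ (-ν)) := by
    refine Finset.filter_congr fun φ _ => ?_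
    rw [cond_A, cond_B, Prod.ext_iff]
    rfl
  have h2 : Module.finrank (ZMod 2) (((V → ZMod 2) ⧸ LinearMap.range M.mulVecLin) ×
      ((V → ZMod 2) ⧸ LinearMap.range M.transpose.mulVecLin)) = 2 * ck M := by
    rw [Module.finrank_prod, finrank_q1, finrank_q2]
    ring
  rw [h1]
  convert card_fiber (PhiM M tw) hs ((LinearMap.range M.mulVecLin).mkQ (-(dl tw e)),
          (LinearMap.range M.transpose.mulVecLin).mkQ (-ν)) (2 * ck M) h2

/-- **LA1** -/
theorem la1 (M : Matrix V V (ZMod 2)) (tw ν : V → ZMod 2) (e : ZMod 2) (h : sp5 M tw = 0)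
    (hl : ∀ l : V → ZMod 2, zt tw l = 0 → M.vecMul l = 0 → l = 0) (f : ℕ → ℝ) :
    ∑ φ : V → ZMod 2, ∑ w : ZMod 2, f (ck (ext M (cc tw e φ) (φ + ν) w)) =
    2 ^ (Fintype.card V + 1) * ((1 - (1 / 2 : ℝ) ^ ck M) ^ 2 * f (ck M - 1) +
      (1 - (1 - (1 / 2 : ℝ) ^ ck M) ^ 2 - (1 / 2 : ℝ) ^ (2 * ck M + 1)) * f (ck M) +
      (1 / 2 : ℝ) ^ (2 * ck M + 1) * f (ck M + 1)) := by
  classical
  have hs := PhiM_surj M tw h hl
  have key : ∀ φ : V → ZMod 2, ∑ w : ZMod 2, f (ck (ext M (cc tw e φ) (φ + ν) w)) =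
      2 * f (ck M - 1) +
      (if (∃ x0, M.mulVec x0 = cc tw e φ) then (1 : ℝ) else 0) *
        (2 * f (ck M) - 2 * f (ck M - 1)) +
      (if Bp M (φ + ν) then (1 : ℝ) else 0) * (2 * f (ck M) - 2 * f (ck M - 1)) +
      (if ((∃ x0, M.mulVec x0 = cc tw e φ) ∧ Bp M (φ + ν)) then (1 : ℝ) else 0) *
        (f (ck M + 1) - 3 * f (ck M) + 2 * f (ck M - 1)) := by
    intro φ
    by_cases hA : ∃ x0, M.mulVec x0 = cc tw e φ <;> by_cases hB : Bp M (φ + ν)
    · rw [sum_AB hA hB, if_pos hA, if_pos hB, if_pos ⟨hA, hB⟩]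
      ring
    · rw [sum_AnB hA hB, if_pos hA, if_neg hB, if_neg (fun h => hB h.2)]
      ring
    · rw [sum_nAB hA hB, if_neg hA, if_pos hB, if_neg (fun h => hA h.1)]
      ring
    · rw [sum_nAnB hA hB, if_neg hA, if_neg hB, if_neg (fun h => hA h.1)]
      ring
  rw [Finset.sum_congr rfl fun φ _ => key φ, Finset.sum_add_distrib, Finset.sum_add_distrib,
    Finset.sum_add_distrib, ← Finset.sum_mul, ← Finset.sum_mul, ← Finset.sum_mul, ← Finset.sum_mul,
    Finset.sum_boole, Finset.sum_boole, Finset.sum_boole, card_A5 M tw e hs, card_B,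
    card_AB5 M tw ν e hs, Finset.sum_const, Finset.card_univ, Fintype.card_fun, ZMod.card,
    nsmul_eq_mul]
  push_cast
  rw [pow_succ (2 : ℝ), pow_succ (1 / 2 : ℝ), mul_comm 2 (ck M), pow_mul]
  ring

end Vale.Agent.P017.R4.H472
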