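import Vale.Agent.P017.R4.H472.LA5

/-!
# P017: first moment and bad vectors for the model `prob5`
-/

open Finset Matrix

namespace Vale.Agent.P017.R4.H472

open Vale.Agent.P017.R3
open Vale.Agent.P017.R3.H237 (sum_z2 z2_cases sum_optv ext_mulVec ext_vecMul extv_eq_zero
  two_pow_ck half z2_ne)

variable {V : Type} [Fintype V] [DecidableEq V]

lemma z2_add_self (a : ZMod 2) : a + a = 0 := by
  revert a
  decide

lemma neg2 (a : ZMod 2) : -a = a := by
  revert a
  decide

lemma neg2v {ι : Type} (a : ι → ZMod 2) : -a = a := funext fun _ => neg2 _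

/-- at most two vectors give the same new column -/
lemma card_cc {tw : V → ZMod 2} (h1 : ∀ a b, tw a = 1 → tw b = 1 → a = b) (e : ZMod 2)
    (y : V → ZMod 2) : ∑ φ : V → ZMod 2, (if cc tw e φ = y then (1 : ℝ) else 0) ≤ 2 := by
  classical
  let f : {φ : V → ZMod 2 // cc tw e φ = y} → ZMod 2 := fun φ => ∑ a, tw a * φ.1 a
  have hf : Function.Injective f := by
    rintro ⟨φ, hφ⟩ ⟨ψ, hψ⟩ hfe
    have h2 : ∀ a, tw a ≠ 1 → φ a = ψ a := by
      intro a ha
      have e1 := congrFun hφ a
      have e2 := congrFun hψ a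
      simp only [cc, if_neg ha] at e1 e2
      rw [e1, e2]
    have h3 : ∑ a, tw a * φ a = ∑ a, tw a * ψ a := hfe
    refine Subtype.ext (funext fun a => ?_)
    by_cases ha : tw a = 1
    · have h4 : ∀ χ : V → ZMod 2, ∑ b, tw b * χ b = χ a := by
        intro χ
        rw [Finset.sum_eq_single a]
        · rw [ha, one_mul]
        · intro b _ hba
          have : tw b = 0 := z2_ne _ fun h => hba (h1 b a h ha)
          rw [this, zero_mul]
        · intro h
          exact absurd (mem_univ a) h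
      rw [h4, h4] at h3
      exact h3
    · exact h2 a ha
  have h2 := Fintype.card_le_of_injective f hf
  rw [ZMod.card, Fintype.card_subtype] at h2
  rw [← Finset.sum_filter, Finset.sum_const, nsmul_eq_mul, mul_one]
  exact_mod_cast h2

/-- **LA2** -/
theorem la2 (M : Matrix V V (ZMod 2)) {tw : V → ZMod 2}
    (h1 : ∀ a b, tw a = 1 → tw b = 1 → a = b) (ν : V → ZMod 2) (e : ZMod 2) :
    ∑ φ : V → ZMod 2, ∑ w : ZMod 2, (2 : ℝ) ^ ck (ext M (cc tw e φ) (φ + ν) w) ≤
    2 ^ (Fintype.card V + 1) * ((2 : ℝ) ^ ck M / 2 + 3 / 2) := by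
  classical
  have h2 : ∀ φ : V → ZMod 2, ∀ w : ZMod 2, (2 : ℝ) ^ ck (ext M (cc tw e φ) (φ + ν) w) =
      ∑ x : V → ZMod 2, ((if M.mulVec x = 0 ∧ (φ + ν) ⬝ᵥ x = 0 then (1 : ℝ) else 0) +
        (if cc tw e φ = -(M.mulVec x) ∧ w = -((φ + ν) ⬝ᵥ x) then (1 : ℝ) else 0)) := by
    intro φ w
    rw [two_pow_ck, sum_optv]
    refine Finset.sum_congr rfl fun x _ => ?_
    rw [sum_z2]
    congr 1
    · refine if_congr ?_ rfl rfl
      rw [ext_mulVec, extv_eq_zero, zero_smul, add_zero, mul_zero, add_zero]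
    · refine if_congr ?_ rfl rfl
      rw [ext_mulVec, extv_eq_zero, one_smul, mul_one]
      constructor
      · rintro ⟨h1, h2⟩
        exact ⟨eq_neg_of_add_eq_zero_right h1, eq_neg_of_add_eq_zero_right h2⟩
      · rintro ⟨h1, h2⟩
        refine ⟨?_, ?_⟩
        · rw [h1]; exact add_neg_cancel _
        · rw [h2]; exact add_neg_cancel _
  have h3 : ∑ φ : V → ZMod 2, ∑ w : ZMod 2, (2 : ℝ) ^ ck (ext M (cc tw e φ) (φ + ν) w) =
      ∑ x : V → ZMod 2, ((∑ φ : V → ZMod 2, ∑ w : ZMod 2,
        (if M.mulVec x = 0 ∧ (φ + ν) ⬝ᵥ x = 0 then (1 : ℝ) else 0)) +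
        ∑ φ : V → ZMod 2, ∑ w : ZMod 2,
        (if cc tw e φ = -(M.mulVec x) ∧ w = -((φ + ν) ⬝ᵥ x) then (1 : ℝ) else 0)) := by
    simp only [h2]
    have e1 : ∑ φ : V → ZMod 2, ∑ w : ZMod 2, ∑ x : V → ZMod 2,
        ((if M.mulVec x = 0 ∧ (φ + ν) ⬝ᵥ x = 0 then (1 : ℝ) else 0) +
        (if cc tw e φ = -(M.mulVec x) ∧ w = -((φ + ν) ⬝ᵥ x) then (1 : ℝ) else 0)) =
        ∑ x : V → ZMod 2, ∑ φ : V → ZMod 2, ∑ w : ZMod 2,
        ((if M.mulVec x = 0 ∧ (φ + ν) ⬝ᵥ x = 0 then (1 : ℝ) else 0) +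
        (if cc tw e φ = -(M.mulVec x) ∧ w = -((φ + ν) ⬝ᵥ x) then (1 : ℝ) else 0)) := by
      rw [Finset.sum_comm]
      rw [Finset.sum_congr rfl fun w _ => Finset.sum_comm]
      rw [Finset.sum_comm]
      refine Finset.sum_congr rfl fun x _ => ?_
      rw [Finset.sum_comm]
    rw [e1]
    refine Finset.sum_congr rfl fun x _ => ?_
    rw [← Finset.sum_add_distrib]
    refine Finset.sum_congr rfl fun φ _ => ?_
    rw [← Finset.sum_add_distrib]
  have h4 : ∀ x : V → ZMod 2, ∑ φ : V → ZMod 2, ∑ w : ZMod 2,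
        (if M.mulVec x = 0 ∧ (φ + ν) ⬝ᵥ x = 0 then (1 : ℝ) else 0) =
      (if M.mulVec x = 0 then (1 : ℝ) else 0) *
        (if x = 0 then 2 ^ (Fintype.card V + 1) else 2 ^ Fintype.card V) := by
    intro x
    by_cases hM : M.mulVec x = 0
    · simp only [hM, true_and, if_true, one_mul, Finset.sum_const, Finset.card_univ, ZMod.card,
        nsmul_eq_mul]
      rw [← Finset.mul_sum]
      by_cases hx : x = 0
      · subst hx
        simp [ZMod.card, pow_succ, mul_comm]
      · rw [if_neg hx]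
        have : ∀ φ : V → ZMod 2, ((φ + ν) ⬝ᵥ x = 0) = (φ ⬝ᵥ x = ν ⬝ᵥ x) := by
          intro φ
          rw [add_dotProduct]
          generalize φ ⬝ᵥ x = a
          generalize ν ⬝ᵥ x = b
          revert a b
          have key : ∀ a b : ZMod 2, (a + b = 0) ↔ (a = b) := by decide
          intro a b
          exact propext (key a b)
        simp only [this]
        rw [half hx]
        push_cast
        ring
    · simp [hM]
  have h5 : ∀ x : V → ZMod 2, ∑ φ : V → ZMod 2, ∑ w : ZMod 2,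
        (if cc tw e φ = -(M.mulVec x) ∧ w = -((φ + ν) ⬝ᵥ x) then (1 : ℝ) else 0) ≤ 2 := by
    intro x
    refine le_trans (le_of_eq ?_) (card_cc h1 e (-(M.mulVec x)))
    refine Finset.sum_congr rfl fun φ _ => ?_
    by_cases hφ : cc tw e φ = -(M.mulVec x)
    · simp only [hφ, true_and, if_true]
      rw [Finset.sum_ite_eq']
      simp
    · simp [hφ]
  rw [h3]
  refine (Finset.sum_le_sum fun x _ => add_le_add (le_of_eq (h4 x)) (h5 x)).trans ?_
  rw [Finset.sum_add_distrib]
  have h6 : ∑ x : V → ZMod 2, (if M.mulVec x = 0 then (1 : ℝ) else 0) *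
      (if x = 0 then 2 ^ (Fintype.card V + 1) else 2 ^ Fintype.card V) =
      2 ^ Fintype.card V * (2 : ℝ) ^ ck M + 2 ^ Fintype.card V := by
    have : ∀ x : V → ZMod 2, (if M.mulVec x = 0 then (1 : ℝ) else 0) *
      (if x = 0 then 2 ^ (Fintype.card V + 1) else 2 ^ Fintype.card V) =
      2 ^ Fintype.card V * (if M.mulVec x = 0 then (1 : ℝ) else 0) +
        (if x = 0 then 2 ^ Fintype.card V else 0) := by
      intro x
      by_cases hx : x = 0
      · subst hx
        simp only [mulVec_zero, if_true]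
        ring
      · rw [if_neg hx, if_neg hx]
        ring
    rw [Finset.sum_congr rfl fun x _ => this x, Finset.sum_add_distrib, ← Finset.mul_sum,
      ← two_pow_ck, Finset.sum_ite_eq']
    simp
  rw [h6]
  have h7 : ∑ x : V → ZMod 2, (2 : ℝ) = 2 ^ Fintype.card V * 2 := by
    simp [ZMod.card]
  rw [h7, pow_succ]
  apply le_of_eq
  ring

/-! ### bad vectors -/

lemma sp5_eq (M : Matrix V V (ZMod 2)) (tw : V → ZMod 2) :
    (sp5 M tw : ℝ) = ∑ x : V → ZMod 2,
      if zt tw x ≠ 0 ∧ M.vecMul x = 0 ∧ M.mulVec (zt tw x) = 0 then (1 : ℝ) else 0 := by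
  unfold sp5
  rw [← Finset.sum_filter, Finset.sum_const, nsmul_eq_mul, mul_one]

omit [Fintype V] [DecidableEq V] in
lemma zt_extv (tw x : V → ZMod 2) (b : ZMod 2) :
    zt (extv tw 0) (extv x b) = extv (zt tw x) b := by
  funext a
  rcases a with _ | a
  · simp [zt_apply, extv]
  · rfl

/-- the vectors with a prescribed symmetric part are determined by one sum and their values
outside the support of `μ` -/
lemma card_sym5 (M : Matrix V V (ZMod 2)) (μ st tw : V → ZMod 2)
    (hR : Rec3 M μ st tw) (ν : V → ZMod 2) :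
    ∑ x : V → ZMod 2, (if ∀ a, tw a ≠ 1 → (M.mulVec (zt tw x) + M.vecMul x) a = ν a
      then (1 : ℝ) else 0) ≤
      2 ^ (Fintype.card V + 1) * (1 / 2 : ℝ) ^ (univ.filter fun a => μ a = 1).card := by
  classical
  set m := (univ.filter fun a => μ a = 1).card with hm
  have hcard : Fintype.card {b : V // μ b = 0} + m = Fintype.card V := by
    have h1 := Finset.card_filter_add_card_filter_not (s := (univ : Finset V)) (fun a => μ a = 1)
    rw [Finset.card_univ] at h1
    rw [Fintype.card_subtype]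
    have h2 : (univ.filter fun b : V => μ b = 0) = univ.filter fun a => ¬ μ a = 1 := by
      refine Finset.filter_congr fun a _ => ?_
      constructor
      · intro h
        rw [h]
        decide
      · exact z2_ne _
    rw [h2, ← h1, hm, add_comm]
  let f : {x : V → ZMod 2 // ∀ a, tw a ≠ 1 → (M.mulVec (zt tw x) + M.vecMul x) a = ν a} →
      ZMod 2 × ({b : V // μ b = 0} → ZMod 2) := fun x => (∑ b, μ b * x.1 b, fun b => x.1 b.1)
  have hf : Function.Injective f := by
    rintro ⟨x, hx⟩ ⟨y, hy⟩ hxy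
    have h1 : ∑ b, μ b * x b = ∑ b, μ b * y b := congrArg Prod.fst hxy
    have h2 : ∀ b, μ b = 0 → x b = y b := fun b hb =>
      congrFun (congrArg Prod.snd hxy) ⟨b, hb⟩
    refine Subtype.ext (funext fun a => ?_)
    rcases z2_cases (μ a) with ha | ha
    · exact h2 a ha
    set d : V → ZMod 2 := x - y with hd
    have hd0 : ∀ b, μ b = 0 → d b = 0 := fun b hb => by
      rw [hd, Pi.sub_apply, h2 b hb, sub_self]
    have hdS : ∑ b, μ b * d b = 0 := by
      have : ∀ b, μ b * d b = μ b * x b - μ b * y b := fun b => by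
        rw [hd, Pi.sub_apply, mul_sub]
      rw [Finset.sum_congr rfl fun b _ => this b, Finset.sum_sub_distrib, h1, sub_self]
    have htd : zt tw d = d := by
      funext b
      rw [zt_apply]
      split_ifs with hb
      · refine (hd0 b (z2_ne _ fun h => ?_)).symm
        rw [hR.ztw b h] at hb
        exact absurd hb (by decide)
      · rfl
    have hta : tw a ≠ 1 := by
      rw [hR.ztw a ha]
      decide
    have hda : ∑ b, (M a b + M b a) * d b = 0 := by
      have e1 := hx a hta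
      have e2 := hy a hta
      have e3 : (M.mulVec (zt tw d) + M.vecMul d) a = 0 := by
        rw [hd, map_sub, Matrix.mulVec_sub, Matrix.sub_vecMul]
        simp only [Pi.add_apply, Pi.sub_apply] at e1 e2 ⊢
        linear_combination e1 - e2
      rw [htd] at e3
      simp only [Pi.add_apply, mulVec, vecMul, dotProduct] at e3
      rw [← Finset.sum_add_distrib] at e3
      rw [← e3]
      exact Finset.sum_congr rfl fun b _ => by ring
    have key : ∀ b, (M a b + M b a) * d b = μ b * d b - (if b = a then d a else 0) := by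
      intro b
      rcases z2_cases (μ b) with hb | hb
      · rw [hd0 b hb, mul_zero, mul_zero]
        split_ifs with h
        · rw [← h, hd0 b hb, sub_zero]
        · rw [sub_zero]
      · by_cases hba : b = a
        · subst hba
          rw [if_pos rfl, hb]
          generalize M b b = c
          generalize d b = t
          revert c t
          decide
        · rw [if_neg hba, hR.recip a b (Ne.symm hba) ha hb, hb, sub_zero]
    rw [Finset.sum_congr rfl fun b _ => key b, Finset.sum_sub_distrib, hdS, zero_sub,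
      Finset.sum_ite_eq' univ a, if_pos (mem_univ a), neg_eq_zero] at hda
    exact sub_eq_zero.1 hda
  have h3 := Fintype.card_le_of_injective f hf
  rw [Fintype.card_prod, Fintype.card_fun, ZMod.card, Fintype.card_subtype] at h3
  rw [← Finset.sum_filter, Finset.sum_const, nsmul_eq_mul, mul_one]
  have h4 : ((univ.filter fun x : V → ZMod 2 =>
      ∀ a, tw a ≠ 1 → (M.mulVec (zt tw x) + M.vecMul x) a = ν a).card : ℝ) ≤
      2 * 2 ^ Fintype.card {b : V // μ b = 0} := by exact_mod_cast h3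
  refine h4.trans (le_of_eq ?_)
  rw [← hcard, pow_succ, pow_add, one_div, inv_pow]
  field_simp

/-- **LA3** -/
theorem la3 (M : Matrix V V (ZMod 2)) (μ st tw : V → ZMod 2) (e : ZMod 2) (ν : V → ZMod 2)
    (hR : Rec3 M μ st tw) :
    ∑ φ : V → ZMod 2, ∑ w : ZMod 2,
      (sp5 (ext M (cc tw e φ) (φ + ν) w) (extv tw 0) : ℝ) ≤
    2 ^ (Fintype.card V + 1) * ((sp5 M tw : ℝ) / 2 +
      (1 / 2 : ℝ) ^ (univ.filter fun a => μ a = 1).card) := by
  classical
  have h1 : ∀ φ : V → ZMod 2, ∀ w : ZMod 2,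
      (sp5 (ext M (cc tw e φ) (φ + ν) w) (extv tw 0) : ℝ) ≤
      ∑ x : V → ZMod 2, ((if zt tw x ≠ 0 ∧ M.vecMul x = 0 ∧ M.mulVec (zt tw x) = 0
          then (1 : ℝ) else 0) *
          (if φ ⬝ᵥ zt tw x = x ⬝ᵥ dl tw e then (1 : ℝ) else 0) +
        (if ∀ a, tw a ≠ 1 → (M.mulVec (zt tw x) + M.vecMul x) a = ν a then (1 : ℝ) else 0) *
          (if φ = M.vecMul x + ν ∧ w = x ⬝ᵥ cc tw e φ then (1 : ℝ) else 0)) := by
    intro φ w
    rw [sp5_eq, sum_optv]
    refine Finset.sum_le_sum fun x _ => ?_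
    rw [sum_z2, zt_extv, zt_extv]
    refine add_le_add ?_ ?_
    · by_cases h : extv (zt tw x) 0 ≠ 0 ∧ (ext M (cc tw e φ) (φ + ν) w).vecMul (extv x 0) = 0 ∧
          (ext M (cc tw e φ) (φ + ν) w).mulVec (extv (zt tw x) 0) = 0
      · rw [if_pos h]
        rw [ext_mulVec, ext_vecMul, extv_eq_zero, extv_eq_zero, zero_smul, zero_smul, add_zero,
          add_zero, mul_zero, zero_mul, add_zero, add_zero, Ne, extv_eq_zero] at h
        obtain ⟨h0, ⟨h1, h2⟩, h3, h4⟩ := h
        have h5 : φ ⬝ᵥ zt tw x = x ⬝ᵥ dl tw e := by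
          rw [cc_eq, dotProduct_add, ← zt_dot, dotProduct_comm] at h2
          have h6 : ∀ a b : ZMod 2, a + b = 0 → a = b := by decide
          exact h6 _ _ h2
        rw [if_pos ⟨fun hx => h0 ⟨hx, rfl⟩, h1, h3⟩, if_pos h5]
        norm_num
      · rw [if_neg h]
        positivity
    · by_cases h : extv (zt tw x) 1 ≠ 0 ∧ (ext M (cc tw e φ) (φ + ν) w).vecMul (extv x 1) = 0 ∧
          (ext M (cc tw e φ) (φ + ν) w).mulVec (extv (zt tw x) 1) = 0
      · rw [if_pos h]
        rw [ext_mulVec, ext_vecMul, extv_eq_zero, extv_eq_zero, one_smul, one_smul,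
          mul_one, one_mul] at h
        obtain ⟨-, ⟨h1, h2⟩, h3, h4⟩ := h
        have e1 : cc tw e φ = M.mulVec (zt tw x) := by
          rw [eq_neg_of_add_eq_zero_right h3, neg2v]
        have e2 : φ + ν = M.vecMul x := by
          rw [eq_neg_of_add_eq_zero_right h1, neg2v]
        have e3 : w = x ⬝ᵥ cc tw e φ := by
          rw [eq_neg_of_add_eq_zero_right h2, neg2]
        have e4 : φ = M.vecMul x + ν := by
          rw [← e2]
          funext a
          simp only [Pi.add_apply]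
          rw [add_assoc, z2_add_self, add_zero]
        have e5 : ∀ a, tw a ≠ 1 → (M.mulVec (zt tw x) + M.vecMul x) a = ν a := by
          intro a ha
          rw [← e1, ← e2]
          simp only [Pi.add_apply, cc, if_neg ha]
          rw [← add_assoc, z2_add_self, zero_add]
        rw [if_pos e5, if_pos ⟨e4, e3⟩]
        norm_num
      · rw [if_neg h]
        positivity
  refine (Finset.sum_le_sum fun φ _ => Finset.sum_le_sum fun w _ => h1 φ w).trans ?_
  have e1 : ∀ F : (V → ZMod 2) → ZMod 2 → (V → ZMod 2) → ℝ,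
      ∑ φ : V → ZMod 2, ∑ w : ZMod 2, ∑ x : V → ZMod 2, F φ w x =
      ∑ x : V → ZMod 2, ∑ φ : V → ZMod 2, ∑ w : ZMod 2, F φ w x := by
    intro F
    rw [Finset.sum_comm]
    rw [Finset.sum_congr rfl fun w _ => Finset.sum_comm]
    rw [Finset.sum_comm]
    refine Finset.sum_congr rfl fun x _ => ?_
    rw [Finset.sum_comm]
  rw [e1]
  have e2 : ∀ x : V → ZMod 2, ∑ φ : V → ZMod 2, ∑ w : ZMod 2,
        ((if zt tw x ≠ 0 ∧ M.vecMul x = 0 ∧ M.mulVec (zt tw x) = 0
          then (1 : ℝ) else 0) *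
          (if φ ⬝ᵥ zt tw x = x ⬝ᵥ dl tw e then (1 : ℝ) else 0) +
        (if ∀ a, tw a ≠ 1 → (M.mulVec (zt tw x) + M.vecMul x) a = ν a then (1 : ℝ) else 0) *
          (if φ = M.vecMul x + ν ∧ w = x ⬝ᵥ cc tw e φ then (1 : ℝ) else 0)) =
      (if zt tw x ≠ 0 ∧ M.vecMul x = 0 ∧ M.mulVec (zt tw x) = 0 then (1 : ℝ) else 0) *
        2 ^ Fintype.card V +
        (if ∀ a, tw a ≠ 1 → (M.mulVec (zt tw x) + M.vecMul x) a = ν a
          then (1 : ℝ) else 0) := by
    intro x
    simp only [Finset.sum_add_distrib, ← Finset.mul_sum]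
    congr 1
    · by_cases hx : zt tw x ≠ 0 ∧ M.vecMul x = 0 ∧ M.mulVec (zt tw x) = 0
      · rw [if_pos hx, one_mul, one_mul]
        simp only [Finset.sum_const, Finset.card_univ, ZMod.card, nsmul_eq_mul]
        rw [← Finset.mul_sum, half hx.1]
        push_cast
        ring
      · rw [if_neg hx, zero_mul, zero_mul]
    · have : ∀ φ : V → ZMod 2, ∑ w : ZMod 2,
          (if φ = M.vecMul x + ν ∧ w = x ⬝ᵥ cc tw e φ then (1 : ℝ) else 0) =
          if φ = M.vecMul x + ν then (1 : ℝ) else 0 := by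
        intro φ
        by_cases hφ : φ = M.vecMul x + ν
        · simp only [hφ, true_and, if_true]
          rw [Finset.sum_ite_eq']
          simp
        · simp [hφ]
      simp only [this]
      rw [Finset.sum_ite_eq']
      simp
  rw [Finset.sum_congr rfl fun x _ => e2 x, Finset.sum_add_distrib, ← Finset.sum_mul, ← sp5_eq,
    mul_add]
  refine add_le_add (le_of_eq ?_) (card_sym5 M μ st tw hR ν)
  rw [pow_succ]
  ring

end Vale.Agent.P017.R4.H472
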