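import Vale.Agent.P017.R4.H472.LB5
import Vale.Agent.P017.R3.H285.RM
import Vale.Agent.P017.R3.H285.RMg

/-!
# P017: the random matrix theorem for the model `prob5`
-/

open Finset

namespace Vale.Agent.P017.R4.H472

open Vale.Agent.P017.R3
open Vale.Agent.P017.R3.H285 (ones ones_ext sum_const2 sum_const3 Hk Hk_step Hk_le_one Hk_ge P_zero
  eta_nonneg eta_le_one P)

variable {V : Type} [Fintype V] [DecidableEq V]

theorem prob5_nil (M : Matrix V V (ZMod 2)) (μ st tw : V → ZMod 2) :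
    prob5 [] V M μ st tw = if ck M = 0 then 1 else 0 := by rw [prob5]

theorem prob5_cons (e : ZMod 2) (ε : List (ZMod 2)) (M : Matrix V V (ZMod 2))
    (μ st tw : V → ZMod 2) :
    prob5 (e :: ε) V M μ st tw = (∑ χ : ZMod 2, ∑ φ : V → ZMod 2, ∑ w : ZMod 2,
      prob5 ε (Option V) (ext M (cc tw e φ) (φ + (e • μ + χ • st)) w) (extv μ e) (extv st 0)
        (extv tw 0)) / 2 ^ (Fintype.card V + 2) := by
  rw [prob5]
  congr 1
  rw [sum_comm (s := (univ : Finset (ZMod 2)))]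
  exact sum_congr rfl fun φ _ => sum_comm

theorem prob5_nonneg : ∀ (ε : List (ZMod 2)) (V : Type) [Fintype V] [DecidableEq V]
    (M : Matrix V V (ZMod 2)) (μ st tw : V → ZMod 2), 0 ≤ prob5 ε V M μ st tw
  | [], V, _, _, M, μ, st, tw => by
    rw [prob5_nil]; split_ifs <;> norm_num
  | e :: ε, V, _, _, M, μ, st, tw => by
    rw [prob5_cons]
    exact div_nonneg (sum_nonneg fun χ _ => sum_nonneg fun φ _ => sum_nonneg fun w _ =>
      prob5_nonneg ε _ _ _ _ _) (by positivity)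

theorem prob5_le_one : ∀ (ε : List (ZMod 2)) (V : Type) [Fintype V] [DecidableEq V]
    (M : Matrix V V (ZMod 2)) (μ st tw : V → ZMod 2), prob5 ε V M μ st tw ≤ 1
  | [], V, _, _, M, μ, st, tw => by
    rw [prob5_nil]; split_ifs <;> norm_num
  | e :: ε, V, _, _, M, μ, st, tw => by
    rw [prob5_cons, div_le_iff₀ (by positivity), one_mul]
    refine (sum_le_sum fun χ _ => sum_le_sum fun φ _ => sum_le_sum fun w _ =>
      prob5_le_one ε _ _ _ _ _).trans ?_
    rw [sum_const3, mul_one]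

omit [Fintype V] [DecidableEq V] in
theorem rec3_ext {M : Matrix V V (ZMod 2)} {μ st tw : V → ZMod 2} (h : Rec3 M μ st tw)
    (φ : V → ZMod 2) (e χ w : ZMod 2) :
    Rec3 (ext M (cc tw e φ) (φ + (e • μ + χ • st)) w) (extv μ e) (extv st 0) (extv tw 0) := by
  have h2 : ∀ x : ZMod 2, x + x = 0 := by decide
  refine ⟨?_, ?_, ?_, ?_, ?_⟩
  · intro a b hab ha hb
    rcases a with _ | a <;> rcases b with _ | b
    · exact absurd rfl hab
    · change (φ + (e • μ + χ • st)) b + cc tw e φ b = 1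
      have h3 := h2 (φ b)
      have ha' : e = 1 := ha
      have hb' : μ b = 1 := hb
      have h4 := h.zst b hb'
      have h5 := h.ztw b hb'
      simp only [Pi.add_apply, Pi.smul_apply, smul_eq_mul, cc, h4, h5, hb', ha']
      rw [if_neg (by decide)]
      linear_combination h3
    · change cc tw e φ a + (φ + (e • μ + χ • st)) a = 1
      have h3 := h2 (φ a)
      have ha' : μ a = 1 := ha
      have hb' : e = 1 := hb
      have h4 := h.zst a ha'
      have h5 := h.ztw a ha'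
      simp only [Pi.add_apply, Pi.smul_apply, smul_eq_mul, cc, h4, h5, hb', ha']
      rw [if_neg (by decide)]
      linear_combination h3
    · exact h.recip a b (fun hh => hab (by rw [hh])) ha hb
  · intro a ha
    rcases a with _ | a
    · rfl
    · exact h.zst a ha
  · intro a ha
    rcases a with _ | a
    · rfl
    · exact h.ztw a ha
  · intro a b ha hb
    rcases a with _ | a
    · exact absurd (show (0 : ZMod 2) = 1 from ha) (by decide)
    · rcases b with _ | b
      · exact absurd (show (0 : ZMod 2) = 1 from hb) (by decide)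
      · rw [h.one a b ha hb]
  · intro a b ha hb
    rcases a with _ | a
    · exact absurd (show (0 : ZMod 2) = 1 from ha) (by decide)
    · rcases b with _ | b
      · change cc tw e φ a = 1
        have ha' : tw a = 1 := ha
        have hb' : e = 1 := hb
        rw [cc, if_pos ha', hb']
      · exact h.row a b ha hb

/-- a lower bound of the probability for all matrices -/
def Low5 (ε : List (ZMod 2)) (α β γ δ : ℝ) : Prop := ∀ (V : Type) [Fintype V] [DecidableEq V]
  (M : Matrix V V (ZMod 2)) (μ st tw : V → ZMod 2), Rec3 M μ st tw →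
  α - β * 2 ^ ck M - γ * sp5 M tw - δ * (1 / 2) ^ ones μ ≤ prob5 ε V M μ st tw

theorem la3' (M : Matrix V V (ZMod 2)) (μ st tw : V → ZMod 2) (e : ZMod 2)
    (hR : Rec3 M μ st tw) :
    ∑ χ : ZMod 2, ∑ φ : V → ZMod 2, ∑ w : ZMod 2,
      (sp5 (ext M (cc tw e φ) (φ + (e • μ + χ • st)) w) (extv tw 0) : ℝ) ≤
      2 ^ (Fintype.card V + 2) * ((sp5 M tw : ℝ) / 2 + (1 / 2 : ℝ) ^ ones μ) := by
  refine (sum_le_sum fun χ _ => la3 M μ st tw e (e • μ + χ • st) hR).trans (le_of_eq ?_)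
  rw [sum_const, card_univ, ZMod.card, nsmul_eq_mul]
  have k4 : (1 / 2 : ℝ) ^ (univ.filter fun a => μ a = 1).card = (1 / 2 : ℝ) ^ ones μ := rfl
  rw [k4]
  push_cast
  ring

theorem low5_cons {ε : List (ZMod 2)} {α β γ δ : ℝ} (hβ : 0 ≤ β)
    (hγ : 0 ≤ γ) (h : Low5 ε α β γ δ) (e : ZMod 2) :
    Low5 (e :: ε) (α - 3 / 2 * β) (β / 2) (γ / 2) (γ + δ * (if e = 1 then 1 / 2 else 1)) := by
  intro V _ _ M μ st tw hR
  rw [prob5_cons, le_div_iff₀ (by positivity)]
  have k1 : ∑ χ : ZMod 2, ∑ φ : V → ZMod 2, ∑ w : ZMod 2,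
      (α - β * 2 ^ ck (ext M (cc tw e φ) (φ + (e • μ + χ • st)) w) -
        γ * sp5 (ext M (cc tw e φ) (φ + (e • μ + χ • st)) w) (extv tw 0) -
          δ * (1 / 2) ^ ones (extv μ e)) ≤
      ∑ χ : ZMod 2, ∑ φ : V → ZMod 2, ∑ w : ZMod 2,
        prob5 ε (Option V) (ext M (cc tw e φ) (φ + (e • μ + χ • st)) w) (extv μ e) (extv st 0)
          (extv tw 0) :=
    sum_le_sum fun χ _ => sum_le_sum fun φ _ => sum_le_sum fun w _ =>
      h _ _ _ _ _ (rec3_ext hR φ e χ w)
  refine le_trans ?_ k1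
  simp only [sum_sub_distrib, ← mul_sum, sum_const3]
  have k2 : ∑ χ : ZMod 2, ∑ φ : V → ZMod 2, ∑ w : ZMod 2,
      (2 : ℝ) ^ ck (ext M (cc tw e φ) (φ + (e • μ + χ • st)) w) ≤
      2 ^ (Fintype.card V + 2) * ((2 : ℝ) ^ ck M / 2 + 3 / 2) := by
    refine (sum_le_sum fun χ _ => la2 M hR.one (e • μ + χ • st) e).trans (le_of_eq ?_)
    rw [sum_const, card_univ, ZMod.card, nsmul_eq_mul]
    push_cast
    ring
  have k3 := la3' M μ st tw e hR
  rw [ones_ext]
  have k5 := mul_le_mul_of_nonneg_left k2 hβ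
  have k6 := mul_le_mul_of_nonneg_left k3 hγ
  have k7 : (0 : ℝ) < 2 ^ (Fintype.card V + 2) := by positivity
  nlinarith

theorem low5_append {ε₂ : List (ZMod 2)} {α β γ δ : ℝ}
    (hβ : 0 ≤ β) (hγ : 0 ≤ γ) (hδ : 0 ≤ δ) (h : Low5 ε₂ α β γ δ) : ∀ ε₁ : List (ZMod 2),
    ∃ α' β' γ' δ' : ℝ, Low5 (ε₁ ++ ε₂) α' β' γ' δ' ∧ α - 3 * β ≤ α' - 3 * β' ∧ 0 ≤ β' ∧ β' ≤ β ∧
      0 ≤ γ' ∧ γ' ≤ γ * (1 / 2) ^ ε₁.count 1 ∧ 0 ≤ δ' ∧
      δ' + 2 * γ' ≤ (1 / 2) ^ ε₁.count 1 * (δ + 2 * γ + 2 * γ * ε₁.count 1)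
  | [] => ⟨α, β, γ, δ, h, le_rfl, hβ, le_rfl, hγ, by simp, hδ, by simp⟩
  | e :: ε₁ => by
    obtain ⟨α', β', γ', δ', i1, i2, i3, i4, i5, i6, i7, i8⟩ := low5_append hβ hγ hδ h ε₁
    refine ⟨_, _, _, _, low5_cons i3 i5 i1 e, by linarith, by linarith, by linarith,
      by linarith, ?_, ?_, ?_⟩
    · by_cases he : e = 1
      · rw [he, List.count_cons_self, pow_succ]
        linarith
      · rw [List.count_cons_of_ne (fun hh => he hh)]
        linarith
    · split_ifs <;> linarith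
    · by_cases he : e = 1
      · rw [if_pos he, he, List.count_cons_self, pow_succ]
        push_cast
        set x : ℝ := (1 / 2) ^ ε₁.count 1
        set c : ℝ := ((ε₁.count 1 : ℕ) : ℝ)
        nlinarith
      · rw [if_neg he, List.count_cons_of_ne (fun hh => he hh)]
        linarith

omit [DecidableEq V] in
theorem row_ne {M : Matrix V V (ZMod 2)} {μ st tw : V → ZMod 2} (hR : Rec3 M μ st tw)
    (hμ : ones μ ≠ 0) (l : V → ZMod 2) (hz : zt tw l = 0) (hv : M.vecMul l = 0) : l = 0 := by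
  have hb : ∃ b, μ b = 1 := by
    by_contra hb
    push Not at hb
    apply hμ
    unfold ones
    rw [card_eq_zero, filter_eq_empty_iff]
    exact fun b _ => hb b
  obtain ⟨b, hb⟩ := hb
  have h1 : ∀ a, tw a ≠ 1 → l a = 0 := by
    intro a ha
    have := congrFun hz a
    rw [zt_apply, if_neg ha] at this
    exact this
  funext a
  by_cases ha : tw a = 1
  · have h2 := congrFun hv b
    simp only [Matrix.vecMul, dotProduct] at h2
    rw [Finset.sum_eq_single a] at h2
    · rw [hR.row a b ha hb, mul_one] at h2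
      exact h2
    · intro c _ hca
      rw [h1 c (fun h => hca (hR.one c a h ha)), zero_mul]
    · intro h
      exact absurd (mem_univ a) h
  · exact h1 a ha

/-- comparison with the ideal chain -/
theorem prob5_start : ∀ (ε : List (ZMod 2)) (V : Type) [Fintype V]
    [DecidableEq V] (M : Matrix V V (ZMod 2)) (μ st tw : V → ZMod 2), Rec3 M μ st tw →
    Hk ε.length (ck M) - 2 * sp5 M tw - (2 * ε.length + 1) * (1 / 2) ^ ones μ ≤
      prob5 ε V M μ st tw
  | [], V, _, _, M, μ, st, tw, hR => by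
    rw [prob5_nil]
    have h0 : (0 : ℝ) ≤ sp5 M tw := Nat.cast_nonneg _
    have hx : (0 : ℝ) < (1 / 2) ^ ones μ := by positivity
    have h4 : Hk 0 (ck M) = if ck M = 0 then 1 else 0 := by
      unfold Hk
      by_cases h : ck M = 0
      · rw [if_pos (by omega), if_pos h, h]; simp [P_zero]
      · rw [if_neg (by omega), if_neg h]
    simp only [List.length_nil, Nat.cast_zero, mul_zero, zero_add, one_mul]
    rw [h4]
    linarith
  | e :: ε, V, _, _, M, μ, st, tw, hR => by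
    have hx : (0 : ℝ) < (1 / 2) ^ ones μ := by positivity
    have k0 := prob5_nonneg (e :: ε) V M μ st tw
    have k1 := Hk_le_one (e :: ε).length (ck M)
    have k3 : (0 : ℝ) ≤ 2 * ((e :: ε).length : ℝ) * (1 / 2) ^ ones μ := by positivity
    by_cases hμ : ones μ = 0
    · have h0 : (0 : ℝ) ≤ sp5 M tw := Nat.cast_nonneg _
      have h1 : (1 / 2 : ℝ) ^ ones μ = 1 := by rw [hμ, pow_zero]
      rw [h1] at k3 ⊢
      linarith
    by_cases hs : sp5 M tw = 0
    · rw [prob5_cons, le_div_iff₀ (by positivity)]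
      have k1 : ∑ χ : ZMod 2, ∑ φ : V → ZMod 2, ∑ w : ZMod 2,
          (Hk ε.length (ck (ext M (cc tw e φ) (φ + (e • μ + χ • st)) w)) -
            2 * sp5 (ext M (cc tw e φ) (φ + (e • μ + χ • st)) w) (extv tw 0) -
            (2 * ε.length + 1) * (1 / 2) ^ ones (extv μ e)) ≤
          ∑ χ : ZMod 2, ∑ φ : V → ZMod 2, ∑ w : ZMod 2,
            prob5 ε (Option V) (ext M (cc tw e φ) (φ + (e • μ + χ • st)) w) (extv μ e)
              (extv st 0) (extv tw 0) :=
        sum_le_sum fun χ _ => sum_le_sum fun φ _ => sum_le_sum fun w _ =>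
          prob5_start ε _ _ _ _ _ (rec3_ext hR φ e χ w)
      refine le_trans ?_ k1
      simp only [sum_sub_distrib, ← mul_sum, sum_const3]
      have j1 : ∑ χ : ZMod 2, ∑ φ : V → ZMod 2, ∑ w : ZMod 2,
          Hk ε.length (ck (ext M (cc tw e φ) (φ + (e • μ + χ • st)) w)) =
          2 ^ (Fintype.card V + 2) * Hk (ε.length + 1) (ck M) := by
        have : ∀ χ : ZMod 2, ∑ φ : V → ZMod 2, ∑ w : ZMod 2,
            Hk ε.length (ck (ext M (cc tw e φ) (φ + (e • μ + χ • st)) w)) =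
            2 ^ (Fintype.card V + 1) * Hk (ε.length + 1) (ck M) := by
          intro χ
          rw [la1 M tw (e • μ + χ • st) e hs (fun l h1 h2 => row_ne hR hμ l h1 h2)
            (fun s => Hk ε.length s), Hk_step]
        rw [sum_congr rfl (fun χ _ => this χ), sum_const, card_univ, ZMod.card, nsmul_eq_mul]
        push_cast
        ring
      have k3 : ∑ χ : ZMod 2, ∑ φ : V → ZMod 2, ∑ w : ZMod 2,
          (sp5 (ext M (cc tw e φ) (φ + (e • μ + χ • st)) w) (extv tw 0) : ℝ) ≤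
          2 ^ (Fintype.card V + 2) * (1 / 2 : ℝ) ^ ones μ := by
        refine (la3' M μ st tw e hR).trans (le_of_eq ?_)
        rw [hs]
        push_cast
        ring
      rw [j1, ones_ext, hs]
      have k5 : (1 / 2 : ℝ) ^ ones μ * (if e = 1 then 1 / 2 else 1) ≤ (1 / 2 : ℝ) ^ ones μ := by
        split_ifs <;> linarith
      have k7 : (0 : ℝ) < 2 ^ (Fintype.card V + 2) := by positivity
      rw [List.length_cons]
      push_cast at k3 ⊢
      set y : ℝ := (1 / 2) ^ ones μ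
      set z : ℝ := y * (if e = 1 then 1 / 2 else 1)
      set C : ℝ := 2 ^ (Fintype.card V + 2)
      have k8 : (2 * (ε.length : ℝ) + 1) * z ≤ (2 * ε.length + 1) * y :=
        mul_le_mul_of_nonneg_left k5 (by positivity)
      have k9 := mul_le_mul_of_nonneg_left k8 k7.le
      nlinarith
    · have k2 : (1 : ℝ) ≤ sp5 M tw := by exact_mod_cast Nat.one_le_iff_ne_zero.2 hs
      linarith

theorem low5_start (ε : List (ZMod 2)) :
    Low5 ε eta (eta / 2 ^ ε.length) 2 (2 * ε.length + 1) := by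
  intro V _ _ M μ st tw hR
  refine le_trans ?_ (prob5_start ε V M μ st tw hR)
  have := Hk_ge ε.length (ck M)
  have e1 : eta * (1 - 2 ^ ck M / 2 ^ ε.length) = eta - eta / 2 ^ ε.length * 2 ^ ck M := by ring
  rw [e1] at this
  linarith

omit [DecidableEq V] in
theorem ck_transpose (M : Matrix V V (ZMod 2)) [DecidableEq V] : ck M.transpose = ck M := by
  have h1 := Vale.Agent.P017.R3.H916.finrank_range M
  have h2 := Vale.Agent.P017.R3.H916.finrank_range_transpose M
  have h3 := Vale.Agent.P017.R3.H916.finrank_range M.transpose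
  omega

/-- the number of bad vectors is at most the number of vectors of the left kernel -/
theorem sp5_le (M : Matrix V V (ZMod 2)) (tw : V → ZMod 2) : (sp5 M tw : ℝ) ≤ 2 ^ ck M := by
  rw [← ck_transpose M, ← Nat.cast_ofNat (R := ℝ), ← Nat.cast_pow,
    ← Vale.Agent.P017.R3.H916.card_ker M.transpose]
  apply Nat.cast_le.mpr
  unfold sp5
  apply card_le_card
  intro l hl
  rw [mem_filter] at hl ⊢
  refine ⟨mem_univ _, ?_⟩
  rw [Matrix.mulVec_transpose]
  exact hl.2.2.1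

/-- the bound for a concatenation -/
theorem prob5_app (ε₁ ε₂ : List (ZMod 2))
    (M : Matrix V V (ZMod 2)) (μ st tw : V → ZMod 2) (hR : Rec3 M μ st tw) :
    eta - 3 / 2 ^ ε₂.length - 1 / 2 ^ ε₂.length * 2 ^ ck M -
      (1 / 2) ^ ε₁.count 1 * (2 * 2 ^ ck M + 2 * ε₂.length + 5 + 4 * ε₁.count 1) ≤
      prob5 (ε₁ ++ ε₂) V M μ st tw := by
  have hb : (0 : ℝ) ≤ eta / 2 ^ ε₂.length := div_nonneg eta_nonneg (by positivity)
  have hb1 : eta / 2 ^ ε₂.length ≤ 1 / 2 ^ ε₂.length :=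
    div_le_div_of_nonneg_right eta_le_one (by positivity)
  obtain ⟨α', β', γ', δ', i1, i2, i3, i4, i5, i6, i7, i8⟩ :=
    low5_append hb (by norm_num) (by positivity) (low5_start ε₂) ε₁
  refine le_trans ?_ (i1 V M μ st tw hR)
  have hs := sp5_le M tw
  have hs0 : (0 : ℝ) ≤ sp5 M tw := Nat.cast_nonneg _
  have hk : (0 : ℝ) < 2 ^ ck M := by positivity
  have hy : (1 / 2 : ℝ) ^ ones μ ≤ 1 := pow_le_one₀ (by norm_num) (by norm_num)
  have hy0 : (0 : ℝ) < (1 / 2 : ℝ) ^ ones μ := by positivity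
  have j1 : β' * 2 ^ ck M ≤ 1 / 2 ^ ε₂.length * 2 ^ ck M :=
    mul_le_mul_of_nonneg_right (i4.trans hb1) hk.le
  have j2 : γ' * sp5 M tw ≤ 2 * (1 / 2) ^ ε₁.count 1 * 2 ^ ck M :=
    mul_le_mul i6 hs hs0 (by positivity)
  have j3 : δ' * (1 / 2) ^ ones μ ≤ δ' := mul_le_of_le_one_right i7 hy
  have j4 : (3 : ℝ) / 2 ^ ε₂.length = 3 * (1 / 2 ^ ε₂.length) := by ring
  rw [j4]
  nlinarith

/-- (B4''') -/
theorem stmtRM5 : StmtRM5 := by
  intro η B hη
  have hd : 0 < (eta - η) / 2 := by linarith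
  obtain ⟨k, hk⟩ : ∃ k : ℕ, (1 / 2 : ℝ) ^ k < (eta - η) / 2 / (3 + |B|) :=
    exists_pow_lt_of_lt_one (by positivity) (by norm_num)
  have hk' : (3 + |B|) * (1 / 2) ^ k ≤ (eta - η) / 2 := by
    rw [lt_div_iff₀ (by positivity)] at hk
    linarith
  have ht : Filter.Tendsto (fun c : ℕ => (2 * |B| + 2 * k + 5) * (1 / 2 : ℝ) ^ c +
      4 * (c * (1 / 2 : ℝ) ^ c)) Filter.atTop (nhds 0) := by
    have t1 : Filter.Tendsto (fun c : ℕ => (1 / 2 : ℝ) ^ c) Filter.atTop (nhds 0) :=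
      tendsto_pow_atTop_nhds_zero_of_lt_one (by norm_num) (by norm_num)
    have t2 : Filter.Tendsto (fun c : ℕ => (c : ℝ) * (1 / 2 : ℝ) ^ c) Filter.atTop (nhds 0) :=
      tendsto_self_mul_const_pow_of_lt_one (by norm_num) (by norm_num)
    have t3 := (t1.const_mul (2 * |B| + 2 * k + 5)).add (t2.const_mul 4)
    simpa using t3
  obtain ⟨h0, hh0⟩ := Filter.eventually_atTop.1 (ht.eventually (gt_mem_nhds hd))
  refine ⟨max h0 1, k, ?_⟩
  intro ε V W _ _ _ _ A μ st tw hR hc hB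
  set ε₁ := ε.take (ε.length - k) with he1
  set ε₂ := ε.drop (ε.length - k) with he2
  have happ : ε = ε₁ ++ ε₂ := (List.take_append_drop _ _).symm
  have hl1 : 1 ≤ ε.length - k := by
    have a1 : 1 ≤ ε₁.count 1 := le_trans (le_max_right _ _) hc
    have a2 : ε₁.count 1 ≤ ε₁.length := List.count_le_length
    have a3 : ε₁.length ≤ ε.length - k := by
      rw [he1, List.length_take]; exact min_le_left _ _
    omega
  have hl2 : ε₂.length = k := by
    rw [he2, List.length_drop]; omega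
  have hc0 := hh0 (ε₁.count 1) (le_trans (le_max_left _ _) hc)
  set c := ε₁.count 1 with hcdef
  have key : ∀ u : W,
      (eta - 3 * (1 / 2) ^ k - (1 / 2) ^ c * (2 * k + 5 + 4 * c)) -
        ((1 / 2) ^ k + 2 * (1 / 2) ^ c) * (2 : ℝ) ^ ck (A u) ≤
      prob5 ε V (A u) μ st tw := by
    intro u
    have := prob5_app ε₁ ε₂ (A u) μ st tw (hR u)
    rw [← happ, hl2, ← hcdef] at this
    have e1 : (1 : ℝ) / 2 ^ k = (1 / 2) ^ k := by rw [one_div_pow]
    have e2 : (3 : ℝ) / 2 ^ k = 3 * (1 / 2) ^ k := by rw [← e1]; ring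
    rw [e1, e2] at this
    refine le_trans (le_of_eq ?_) this
    ring
  have hW : (0 : ℝ) < Fintype.card W := by exact_mod_cast Fintype.card_pos
  have hsum := sum_le_sum (s := (univ : Finset W)) fun u _ => key u
  rw [sum_sub_distrib, sum_const, card_univ, ← mul_sum, nsmul_eq_mul] at hsum
  rw [le_div_iff₀ hW]
  refine le_trans ?_ hsum
  rw [div_le_iff₀ hW] at hB
  have hB' : ∑ u : W, (2 : ℝ) ^ ck (A u) ≤ |B| * Fintype.card W :=
    hB.trans (mul_le_mul_of_nonneg_right (le_abs_self B) hW.le)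
  have hq : (0 : ℝ) ≤ (1 / 2) ^ k + 2 * (1 / 2) ^ c := by positivity
  have h7 := mul_le_mul_of_nonneg_left hB' hq
  have h8 : η ≤ (eta - 3 * (1 / 2) ^ k - (1 / 2) ^ c * (2 * k + 5 + 4 * c)) -
      ((1 / 2) ^ k + 2 * (1 / 2) ^ c) * |B| := by nlinarith
  have h9 := mul_le_mul_of_nonneg_right h8 hW.le
  nlinarith

end Vale.Agent.P017.R4.H472
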