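import Vale.Agent.P017.R4.Defs2
import Vale.Agent.P017.R4.H472.RM5

/-!
# P017: the statements `StmtRM5` and `StmtRM3` of the interface
-/

open Finset

namespace Vale.Agent.P017.R4.H472.Plug

open Vale.Agent.P017.R3

theorem cl_eq {V : Type} (e : ZMod 2) (tw φ : V → ZMod 2) :
    Vale.Agent.P017.R4.cl e tw φ = cc tw e φ := rfl

theorem prob5_eq : ∀ (ε : List (ZMod 2)) (V : Type) [Fintype V] [DecidableEq V]
    (M : Matrix V V (ZMod 2)) (μ st tw : V → ZMod 2),
    Vale.Agent.P017.R4.prob5 ε V M μ st tw = H472.prob5 ε V M μ st tw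
  | [], V, _, _, M, μ, st, tw => by
    rw [Vale.Agent.P017.R4.prob5, H472.prob5]
  | e :: ε, V, _, _, M, μ, st, tw => by
    rw [Vale.Agent.P017.R4.prob5, H472.prob5]
    congr 1
    refine sum_congr rfl fun φ _ => sum_congr rfl fun w _ => sum_congr rfl fun χ _ => ?_
    rw [prob5_eq ε]
    rfl

theorem rec_of {V : Type} {A : Matrix V V (ZMod 2)} {μ st tw : V → ZMod 2}
    (h : Vale.Agent.P017.R4.Rec5 A μ st tw) : H472.Rec3 A μ st tw := by
  have z : ∀ b : ZMod 2, b ≠ 1 → b = 0 := by decide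
  have hst : ∀ a, μ a = 1 → st a = 0 := fun a ha => z _ fun h1 => by
    have := h.zero a h1
    rw [ha] at this
    exact absurd this (by decide)
  have htw : ∀ a, μ a = 1 → tw a = 0 := fun a ha => z _ fun h1 => by
    have := h.zero' a h1
    rw [ha] at this
    exact absurd this (by decide)
  refine ⟨?_, hst, htw, h.one', ?_⟩
  · intro a b hab ha hb
    rw [h.recip a b hab (hst a ha) (hst b hb) (htw a ha) (htw b hb), ha, hb]
    rfl
  · intro a b ha hb
    have hab : a ≠ b := by
      rintro rfl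
      rw [htw a hb] at ha
      exact absurd ha (by decide)
    rw [h.row a b ha hab, hb]

/-- the statement of `R4.Defs2` -/
theorem stmtRM5 : Vale.Agent.P017.R4.StmtRM5 := by
  intro η B hη
  obtain ⟨h, k, H⟩ := H472.stmtRM5 η B hη
  refine ⟨h, k, ?_⟩
  intro ε V W _ _ _ _ A μ st tw hR hc hB
  have h1 := H ε V W A μ st tw (fun u => rec_of (hR u)) hc hB
  simpa only [prob5_eq] using h1

theorem extv_zero {V : Type} : extv (0 : V → ZMod 2) 0 = 0 := by
  funext a
  rcases a with _ | a <;> rfl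

theorem prob3_eq : ∀ (ε : List (ZMod 2)) (V : Type) [Fintype V] [DecidableEq V]
    (M : Matrix V V (ZMod 2)) (μ tw : V → ZMod 2),
    Vale.Agent.P017.R4.prob3 ε V M μ tw = H472.prob5 ε V M μ 0 tw
  | [], V, _, _, M, μ, tw => by
    rw [Vale.Agent.P017.R4.prob3, H472.prob5]
  | e :: ε, V, _, _, M, μ, tw => by
    rw [Vale.Agent.P017.R4.prob3, prob5_cons]
    have : ∀ χ : ZMod 2, ∑ φ : V → ZMod 2, ∑ w : ZMod 2,
        H472.prob5 ε (Option V) (ext M (cc tw e φ) (φ + (e • μ + χ • (0 : V → ZMod 2))) w)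
          (extv μ e) (extv 0 0) (extv tw 0) =
        ∑ φ : V → ZMod 2, ∑ w : ZMod 2,
          Vale.Agent.P017.R4.prob3 ε (Option V)
            (ext M (Vale.Agent.P017.R4.cl e tw φ) (φ + e • μ) w) (extv μ e) (extv tw 0) := by
      intro χ
      rw [extv_zero]
      refine sum_congr rfl fun φ _ => sum_congr rfl fun w _ => ?_
      rw [prob3_eq ε, smul_zero, add_zero]
      rfl
    rw [sum_congr rfl (fun χ _ => this χ), sum_const, card_univ, ZMod.card, nsmul_eq_mul,
      pow_succ _ (Fintype.card V + 1)]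
    push_cast
    rw [mul_comm (2 : ℝ), mul_div_mul_right _ _ (by norm_num)]

theorem rec_of3 {V : Type} {A : Matrix V V (ZMod 2)} {μ tw : V → ZMod 2}
    (h : Vale.Agent.P017.R4.Rec3 A μ tw) : H472.Rec3 A μ 0 tw := by
  have z : ∀ b : ZMod 2, b ≠ 1 → b = 0 := by decide
  have htw : ∀ a, μ a = 1 → tw a = 0 := fun a ha => z _ fun h1 => by
    have := h.zero a h1
    rw [ha] at this
    exact absurd this (by decide)
  refine ⟨?_, fun a _ => rfl, htw, h.one, ?_⟩
  · intro a b hab ha hb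
    rw [h.recip a b hab (htw a ha) (htw b hb), ha, hb]
    rfl
  · intro a b ha hb
    have hab : a ≠ b := by
      rintro rfl
      rw [htw a hb] at ha
      exact absurd ha (by decide)
    rw [h.row a b ha hab, hb]

/-- the statement of `R4.Defs` -/
theorem stmtRM3 : Vale.Agent.P017.R4.StmtRM3 := by
  intro η B hη
  obtain ⟨h, k, H⟩ := H472.stmtRM5 η B hη
  refine ⟨h, k, ?_⟩
  intro ε V W _ _ _ _ A μ tw hR hc hB
  have h1 := H ε V W A μ 0 tw (fun u => rec_of3 (hR u)) hc hB
  simpa only [prob3_eq] using h1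

end Vale.Agent.P017.R4.H472.Plug
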